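import Vale.Agent.N216.Lite

/-!
P216: infinitely many closed geodesics for new classes of fundamental groups and of products.
-/

open Manifold Vale.Agent.P216Z57 Vale.Agent.N216 Vale.Agent.N216L
open scoped ContDiff

namespace Vale.Agent.Results.P216.A0Malnormal

theorem result (E : Type) [NormedAddCommGroup E] [NormedSpace ℝ E] [FiniteDimensional ℝ E]
    (M : Type) [TopologicalSpace M] [T2Space M] [CompactSpace M] [ChartedSpace E M]
    [IsManifold 𝓘(ℝ, E) ∞ M] (g : Met E M) (x : M)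
    (h : ¬ Tight (FundamentalGroup M x) ∨
      (∃ a : FundamentalGroup M x, Flexible a) ∨
      ((¬ ∃ K : Subgroup (FundamentalGroup M x),
          K.FiniteIndex ∧ Nonempty (Multiplicative ℤ ≃* K)) ∧
        (Central (FundamentalGroup M x) ∨
          (∃ (N : Type) (_ : TopologicalSpace N), Nonempty (M ≃ₜ N × Circle)) ∨
          (ManyClasses (Set.univ : Set (FundamentalGroup M x)) ∧
            (Commuting (FundamentalGroup M x) ∨ Splits x))))) :
    (images g).Infinite := by
  refine not_tight g x fun t => ?_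
  rcases h with h | ⟨a, ha, h | ⟨m, n, h, e⟩⟩ | ⟨h0, ⟨H, h1, h2⟩ | ⟨N, _, ⟨e⟩⟩ |
    ⟨h, ⟨A, B, h1, h2, h3, h4⟩ | ⟨A, B, _, _, e, h1, h2⟩⟩⟩
  · exact h t
  · exact h (t.cyclic ha)
  · exact h (t.conj_eq ha e)
  · exact h0 (t.centre h1 h2)
  · obtain ⟨φ⟩ := prod_equiv e x
    exact h0 (t.centre inferInstance (centre_of_prod φ (circle_inf _)))
  · exact h0 (t.comm h h1 h2 h3 h4)
  · obtain ⟨φ⟩ := prod_equiv e x
    obtain ⟨A, B, a1, a2, a3, a4⟩ := comm_of_prod φ h1 h2
    exact h0 (t.comm h a1 a2 a3 a4)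

end Vale.Agent.Results.P216.A0Malnormal
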